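import Mathlib

/-!
P038, helper250: the inequality `mu (be) + mu (al) ≤ mu (Gp) + mu (M1)` (Step 4 of the proof that the
inner minimum is at most the outer minimum).
-/

namespace P038H250

open Finset Classical

noncomputable section

variable {V : Type*} [Fintype V]

/-- weight of a finite set -/
def wt (w : V → ℝ) (S : Finset V) : ℝ := ∑ x ∈ S, w x

/-- product measure of a relation -/
def mu (w : V → ℝ) (R : V → V → Prop) : ℝ := ∑ a, ∑ x, if R a x then w a * w x else 0

def Gp (B W : V → V → Prop) (a x : V) : Prop := ¬ B a x ∧ ¬ W a x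
def HB (A B : V → V → Prop) (a x : V) : Prop := ∃ y, B a y ∧ A y x
def VW (A W : V → V → Prop) (a x : V) : Prop := ∃ z, W z x ∧ A z a
def al (A B W : V → V → Prop) (a x : V) : Prop := (∃ y, Gp B W a y ∧ A y x) ∧ ¬ HB A B a x
def be (A B W : V → V → Prop) (a x : V) : Prop := (∃ z, Gp B W z x ∧ A z a) ∧ ¬ VW A W a x
def M1 (A B W : V → V → Prop) (a x : V) : Prop :=
  (∃ z, A z a ∧ ¬ HB A B z x) ∧ (∃ y, A y x ∧ ¬ VW A W a y)

omit [Fintype V] in
lemma wt_nonneg {w : V → ℝ} (hw : ∀ v, 0 < w v) (S : Finset V) : 0 ≤ wt w S :=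
  Finset.sum_nonneg fun v _ => (hw v).le

omit [Fintype V] in
lemma wt_mono {w : V → ℝ} (hw : ∀ v, 0 < w v) {S T : Finset V} (h : S ⊆ T) : wt w S ≤ wt w T :=
  Finset.sum_le_sum_of_subset_of_nonneg h fun v _ _ => (hw v).le

omit [Fintype V] in
lemma wt_sdiff (w : V → ℝ) {S T : Finset V} (h : S ⊆ T) : wt w (T \ S) = wt w T - wt w S := by
  have := Finset.sum_sdiff (f := w) h
  unfold wt; linarith

omit [Fintype V] in
lemma wt_union_disj (w : V → ℝ) {S T : Finset V} (h : Disjoint S T) :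
    wt w (S ∪ T) = wt w S + wt w T := Finset.sum_union h

lemma mu_row (w : V → ℝ) (R : V → V → Prop) :
    mu w R = ∑ a, w a * wt w (univ.filter (fun x => R a x)) := by
  unfold mu wt
  refine Finset.sum_congr rfl fun a _ => ?_
  rw [Finset.mul_sum, Finset.sum_filter]

lemma mu_col (w : V → ℝ) (R : V → V → Prop) :
    mu w R = ∑ x, w x * wt w (univ.filter (fun a => R a x)) := by
  unfold mu wt
  rw [Finset.sum_comm]
  refine Finset.sum_congr rfl fun x _ => ?_
  rw [Finset.mul_sum, Finset.sum_filter]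
  refine Finset.sum_congr rfl fun a _ => ?_
  by_cases h : R a x <;> simp [h, mul_comm]

/-- minimiser of maximal cardinality -/
lemma exists_min_max {V : Type*} (E : Finset V) (f : Finset V → ℝ) :
    ∃ K, K ⊆ E ∧ (∀ K', K' ⊆ E → f K ≤ f K') ∧
      (∀ K', K' ⊆ E → f K' ≤ f K → K'.card ≤ K.card) := by
  obtain ⟨K0, hK0, hmin⟩ := Finset.exists_min_image E.powerset f ⟨∅, by simp⟩
  obtain ⟨K, hK, hmax⟩ := Finset.exists_max_image
    (E.powerset.filter (fun K => f K ≤ f K0)) Finset.card ⟨K0, by simp [Finset.mem_powerset.1 hK0]⟩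
  rw [Finset.mem_filter, Finset.mem_powerset] at hK
  refine ⟨K, hK.1, fun K' h => hK.2.trans (hmin K' (Finset.mem_powerset.2 h)), fun K' h h' => ?_⟩
  exact hmax K' (by rw [Finset.mem_filter, Finset.mem_powerset]; exact ⟨h, h'.trans hK.2⟩)

/-- telescoping lemma -/
lemma telescope (P Q : ℝ → ℝ) (δ C : ℝ) (hQ0 : ∀ θ, 0 ≤ Q θ) (hQC : ∀ θ, Q θ ≤ C)
    (h : ∀ θ θ', θ ≤ θ' → P θ' - P θ ≤ (θ' - θ) * (δ + Q θ' - Q θ)) (T : ℝ) (hT : 1 ≤ T) :
    P T - P 1 ≤ (T - 1) * δ := by
  have hC : 0 ≤ C := (hQ0 0).trans (hQC 0)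
  have key : ∀ N : ℕ, 0 < N → P T - P 1 ≤ (T - 1) * δ + (T - 1) * C / N := by
    intro N hN
    have hN' : (0 : ℝ) < N := by exact_mod_cast hN
    set s : ℝ := (T - 1) / N with hs
    have hs0 : 0 ≤ s := by rw [hs]; exact div_nonneg (by linarith) hN'.le
    have hrange : ∀ n : ℕ, P (1 + n * s) - P 1 ≤ (n * s) * δ + s * (Q (1 + n * s) - Q 1) := by
      intro n
      induction n with
      | zero => simp
      | succ k ih =>
        have h1 := h (1 + k * s) (1 + (k + 1 : ℕ) * s) (by push_cast; nlinarith)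
        have e : (1 + (k + 1 : ℕ) * s) - (1 + k * s) = s := by push_cast; ring
        rw [e] at h1
        push_cast at h1 ih ⊢
        nlinarith
    have hN1 := hrange N
    have eN : (N : ℝ) * s = T - 1 := by rw [hs]; field_simp
    rw [eN] at hN1
    have e1 : 1 + (T - 1) = T := by ring
    rw [e1] at hN1
    have : s * (Q T - Q 1) ≤ s * C := by
      apply mul_le_mul_of_nonneg_left _ hs0
      have := hQ0 1; have := hQC T; linarith
    have e2 : s * C = (T - 1) * C / N := by rw [hs]; ring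
    linarith
  by_contra hcon
  rw [not_le] at hcon
  set ε := P T - P 1 - (T - 1) * δ with hε
  have hε0 : 0 < ε := by linarith
  obtain ⟨N, hN⟩ := exists_nat_gt ((T - 1) * C / ε)
  have hN0 : (0 : ℝ) ≤ (T - 1) * C / ε := div_nonneg (mul_nonneg (by linarith) hC) hε0.le
  have hNpos : (0 : ℝ) < N := lt_of_le_of_lt hN0 hN
  have := key N (by exact_mod_cast hNpos)
  rw [div_lt_iff₀ hε0] at hN
  have h3 : (T - 1) * C / N < ε := by
    rw [div_lt_iff₀ hNpos]; linarith
  linarith

/-- covered weight -/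
def cov (A : V → V → Prop) (w : V → ℝ) (S : V → Prop) (K : Finset V) : ℝ :=
  wt w (univ.filter (fun u => (∃ a ∈ K, A a u) ∧ S u))

lemma cov_mono (A : V → V → Prop) {w : V → ℝ} (hw : ∀ v, 0 < w v) {S S' : V → Prop}
    (hS : ∀ u, S u → S' u) {K K' : Finset V} (hK : K ⊆ K') : cov A w S K ≤ cov A w S' K' := by
  apply wt_mono hw
  intro u hu
  simp only [Finset.mem_filter, Finset.mem_univ, true_and] at hu ⊢
  obtain ⟨⟨a, ha, hau⟩, hs⟩ := hu
  exact ⟨⟨a, hK ha, hau⟩, hS u hs⟩

/-- the exchange inequality behind the key lemma -/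
lemma exchange (A : V → V → Prop) {w : V → ℝ} (hw : ∀ v, 0 < w v) {S S' : V → Prop}
    (hS : ∀ u, S u → S' u) (K K' L : Finset V) (hL : L ⊆ K')
    (h : ∀ u, S u → ∀ k ∈ K', k ∉ L → A k u → k ∈ K) :
    cov A w S (K ∪ L) - cov A w S K ≤ cov A w S' K' - cov A w S' (K' \ L) := by
  unfold cov
  have h1 : univ.filter (fun u => (∃ a ∈ K, A a u) ∧ S u) ⊆
      univ.filter (fun u => (∃ a ∈ K ∪ L, A a u) ∧ S u) := by
    intro u hu
    simp only [Finset.mem_filter, Finset.mem_univ, true_and, Finset.mem_union] at hu ⊢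
    obtain ⟨⟨a, ha, hau⟩, hs⟩ := hu
    exact ⟨⟨a, Or.inl ha, hau⟩, hs⟩
  have h2 : univ.filter (fun u => (∃ a ∈ K' \ L, A a u) ∧ S' u) ⊆
      univ.filter (fun u => (∃ a ∈ K', A a u) ∧ S' u) := by
    intro u hu
    simp only [Finset.mem_filter, Finset.mem_univ, true_and, Finset.mem_sdiff] at hu ⊢
    obtain ⟨⟨a, ha, hau⟩, hs⟩ := hu
    exact ⟨⟨a, ha.1, hau⟩, hs⟩
  rw [← wt_sdiff w h1, ← wt_sdiff w h2]
  apply wt_mono hw
  intro u hu
  simp only [Finset.mem_sdiff, Finset.mem_filter, Finset.mem_univ, true_and, Finset.mem_union,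
    not_and] at hu ⊢
  obtain ⟨⟨⟨a, ha, hau⟩, hs⟩, hn⟩ := hu
  have haL : a ∈ L := by
    rcases ha with ha | ha
    · exact absurd hs (hn ⟨a, ha, hau⟩)
    · exact ha
  refine ⟨⟨⟨a, hL haL, hau⟩, hS u hs⟩, fun hex => ?_⟩
  exfalso
  obtain ⟨k, ⟨hk, hkL⟩, hku⟩ := hex
  exact hn ⟨k, h u hs k hk hkL hku, hku⟩ hs

section main

variable (A : V → V → Prop) (w : V → ℝ) (B W : V → V → Prop)

/-- gap column -/
def EG (y : V) : Finset V := univ.filter (fun a => Gp B W a y)
/-- alpha column -/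
def EA (x : V) : Finset V := univ.filter (fun a => al A B W a x)
/-- source set of a column -/
def SS (y : V) (u : V) : Prop := ¬ VW A W u y
/-- union of the sets `SS` -/
def TT (x : V) (u : V) : Prop := ∃ y, A y x ∧ ¬ VW A W u y

lemma exKG (θ : ℝ) (y : V) : ∃ K, K ⊆ EG B W y ∧
    (∀ K', K' ⊆ EG B W y → cov A w (SS A W y) K - θ * wt w K ≤ cov A w (SS A W y) K' - θ * wt w K') ∧
    (∀ K', K' ⊆ EG B W y → cov A w (SS A W y) K' - θ * wt w K' ≤ cov A w (SS A W y) K - θ * wt w K →
      K'.card ≤ K.card) :=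
  exists_min_max (EG B W y) (fun K => cov A w (SS A W y) K - θ * wt w K)

lemma exKA (θ : ℝ) (x : V) : ∃ K, K ⊆ EA A B W x ∧
    (∀ K', K' ⊆ EA A B W x → cov A w (TT A W x) K - θ * wt w K ≤ cov A w (TT A W x) K' - θ * wt w K') ∧
    (∀ K', K' ⊆ EA A B W x → cov A w (TT A W x) K' - θ * wt w K' ≤ cov A w (TT A W x) K - θ * wt w K →
      K'.card ≤ K.card) :=
  exists_min_max (EA A B W x) (fun K => cov A w (TT A W x) K - θ * wt w K)

def KG (θ : ℝ) (y : V) : Finset V := (exKG A w B W θ y).choose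
def KA (θ : ℝ) (x : V) : Finset V := (exKA A w B W θ x).choose

lemma KG_sub (θ : ℝ) (y : V) : KG A w B W θ y ⊆ EG B W y := (exKG A w B W θ y).choose_spec.1
lemma KG_min (θ : ℝ) (y : V) (K' : Finset V) (h : K' ⊆ EG B W y) :
    cov A w (SS A W y) (KG A w B W θ y) - θ * wt w (KG A w B W θ y) ≤
      cov A w (SS A W y) K' - θ * wt w K' := (exKG A w B W θ y).choose_spec.2.1 K' h
lemma KG_max (θ : ℝ) (y : V) (K' : Finset V) (h : K' ⊆ EG B W y)
    (h' : cov A w (SS A W y) K' - θ * wt w K' ≤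
      cov A w (SS A W y) (KG A w B W θ y) - θ * wt w (KG A w B W θ y)) :
    K'.card ≤ (KG A w B W θ y).card := (exKG A w B W θ y).choose_spec.2.2 K' h h'
lemma KA_sub (θ : ℝ) (x : V) : KA A w B W θ x ⊆ EA A B W x := (exKA A w B W θ x).choose_spec.1
lemma KA_min (θ : ℝ) (x : V) (K' : Finset V) (h : K' ⊆ EA A B W x) :
    cov A w (TT A W x) (KA A w B W θ x) - θ * wt w (KA A w B W θ x) ≤
      cov A w (TT A W x) K' - θ * wt w K' := (exKA A w B W θ x).choose_spec.2.1 K' h

variable {A w B W}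

lemma EA_gap {x k : V} (hk : k ∈ EA A B W x) {y : V} (hy : A y x) {u : V} (hu : SS A W y u)
    (hku : A k u) : k ∈ EG B W y := by
  simp only [EA, EG, Finset.mem_filter, Finset.mem_univ, true_and] at hk ⊢
  refine ⟨fun hB => hk.2 ⟨y, hB, hy⟩, fun hW => hu ⟨k, hW, hku⟩⟩

omit [Fintype V] in
lemma SS_TT {y x : V} (hy : A y x) (u : V) (hu : SS A W y u) : TT A W x u := ⟨y, hy, hu⟩

/-- key lemma (b) -/
lemma key (hw : ∀ v, 0 < w v) (θ : ℝ) {y x : V} (hy : A y x) {a : V}
    (ha : a ∈ KA A w B W θ x) (haG : a ∈ EG B W y) : a ∈ KG A w B W θ y := by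
  set K := KG A w B W θ y with hK
  set K' := KA A w B W θ x with hK'
  set L := (K' ∩ EG B W y) \ K with hLdef
  have hLK' : L ⊆ K' := fun v hv => by
    rw [hLdef, Finset.mem_sdiff, Finset.mem_inter] at hv; exact hv.1.1
  have hLG : L ⊆ EG B W y := fun v hv => by
    rw [hLdef, Finset.mem_sdiff, Finset.mem_inter] at hv; exact hv.1.2
  have hLK : Disjoint K L := by
    rw [Finset.disjoint_left]; intro v hv hv'
    rw [hLdef, Finset.mem_sdiff] at hv'; exact hv'.2 hv
  have hex := exchange A hw (SS_TT (W := W) hy) K K' L hLK' (by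
    intro u hu k hk hkL hku
    have hkG := EA_gap (KA_sub A w B W θ x hk) hy hu hku
    by_contra hkK
    exact hkL (by rw [hLdef, Finset.mem_sdiff, Finset.mem_inter]; exact ⟨⟨hk, hkG⟩, hkK⟩))
  have hmin := KA_min A w B W θ x (K' \ L)
    (Finset.sdiff_subset.trans (KA_sub A w B W θ x))
  rw [← hK', wt_sdiff w hLK'] at hmin
  have hcard := KG_max A w B W θ y (K ∪ L)
    (Finset.union_subset (KG_sub A w B W θ y) hLG) (by
      rw [← hK, wt_union_disj w hLK]; nlinarith)
  rw [← hK, Finset.card_union_of_disjoint hLK] at hcard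
  have hL0 : L = ∅ := by
    rw [← Finset.card_eq_zero]; omega
  by_contra haK
  have : a ∈ L := by rw [hLdef, Finset.mem_sdiff, Finset.mem_inter]; exact ⟨⟨ha, haG⟩, haK⟩
  rw [hL0] at this
  simp at this

/-- (d): comparison at one threshold -/
lemma slope (hw : ∀ v, 0 < w v)
    (rowHall : ∀ (a : V) (J : Finset V), (∀ y ∈ J, Gp B W a y) →
      wt w J ≤ wt w (univ.filter (fun x => (∃ y ∈ J, A y x) ∧ ¬ HB A B a x))) (θ : ℝ) :
    (∑ x, w x * wt w (KA A w B W θ x)) - ∑ y, w y * wt w (KG A w B W θ y) ≤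
      mu w (al A B W) - mu w (Gp B W) := by
  have h1 : mu w (fun a y => Gp B W a y ∧ a ∉ KG A w B W θ y) =
      mu w (Gp B W) - ∑ y, w y * wt w (KG A w B W θ y) := by
    rw [mu_col, mu_col, ← Finset.sum_sub_distrib]
    refine Finset.sum_congr rfl fun y _ => ?_
    rw [← mul_sub]
    congr 1
    rw [show univ.filter (fun a => Gp B W a y) = EG B W y from rfl,
      ← wt_sdiff w (KG_sub A w B W θ y)]
    congr 1
    ext a
    simp [EG]
  have h2 : mu w (fun a x => al A B W a x ∧ a ∉ KA A w B W θ x) =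
      mu w (al A B W) - ∑ x, w x * wt w (KA A w B W θ x) := by
    rw [mu_col, mu_col, ← Finset.sum_sub_distrib]
    refine Finset.sum_congr rfl fun x _ => ?_
    rw [← mul_sub]
    congr 1
    rw [show univ.filter (fun a => al A B W a x) = EA A B W x from rfl,
      ← wt_sdiff w (KA_sub A w B W θ x)]
    congr 1
    ext a
    simp [EA]
  have h3 : mu w (fun a y => Gp B W a y ∧ a ∉ KG A w B W θ y) ≤
      mu w (fun a x => al A B W a x ∧ a ∉ KA A w B W θ x) := by
    rw [mu_row, mu_row]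
    refine Finset.sum_le_sum fun a _ => mul_le_mul_of_nonneg_left ?_ (hw a).le
    refine (rowHall a _ (fun y hy => ?_)).trans (wt_mono hw ?_)
    · simp only [Finset.mem_filter, Finset.mem_univ, true_and] at hy
      exact hy.1
    · intro x hx
      simp only [Finset.mem_filter, Finset.mem_univ, true_and] at hx ⊢
      obtain ⟨⟨y, ⟨hyG, hyK⟩, hyx⟩, hHB⟩ := hx
      refine ⟨⟨⟨y, hyG, hyx⟩, hHB⟩, fun hKA => hyK ?_⟩
      exact key hw θ hyx hKA (by simp [EG, hyG])
  linarith

/-- (i) second half: the Hall property for the columns of `al` -/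
lemma hallA (hw : ∀ v, 0 < w v)
    (colHall : ∀ (y : V) (K : Finset V), (∀ a ∈ K, Gp B W a y) →
      wt w K ≤ wt w (univ.filter (fun u => (∃ a ∈ K, A a u) ∧ ¬ VW A W u y))) (x : V) :
    ∀ (n : ℕ) (K : Finset V), K.card ≤ n → K ⊆ EA A B W x → wt w K ≤ cov A w (TT A W x) K := by
  intro n
  induction n with
  | zero =>
    intro K hc _
    have : K = ∅ := by rw [← Finset.card_eq_zero]; omega
    subst this
    have : (0 : ℝ) ≤ cov A w (TT A W x) ∅ := wt_nonneg hw _
    simpa [wt] using this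
  | succ n ih =>
    intro K hc hK
    rcases K.eq_empty_or_nonempty with rfl | ⟨a, ha⟩
    · have : (0 : ℝ) ≤ cov A w (TT A W x) ∅ := wt_nonneg hw _
      simpa [wt] using this
    have haE := hK ha
    simp only [EA, Finset.mem_filter, Finset.mem_univ, true_and] at haE
    obtain ⟨⟨y, hyG, hyx⟩, hnHB⟩ := haE
    set L := K ∩ EG B W y with hL
    have haL : a ∈ L := by rw [hL, Finset.mem_inter]; exact ⟨ha, by simp [EG, hyG]⟩
    have hLK : L ⊆ K := Finset.inter_subset_left
    have hex := exchange A hw (SS_TT (W := W) hyx) ∅ K L hLK (by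
      intro u hu k hk hkL hku
      exact absurd (by rw [hL, Finset.mem_inter]; exact ⟨hk, EA_gap (hK hk) hyx hu hku⟩) hkL)
    have hcard : (K \ L).card ≤ n := by
      have := Finset.card_sdiff_add_card_eq_card hLK
      have : 0 < L.card := Finset.card_pos.2 ⟨a, haL⟩
      omega
    have h1 := ih (K \ L) hcard (Finset.sdiff_subset.trans hK)
    have h2 := colHall y L (fun b hb => by
      rw [hL, Finset.mem_inter] at hb
      have := hb.2
      simpa [EG] using this)
    have h3 : cov A w (SS A W y) L = wt w (univ.filter (fun u => (∃ a ∈ L, A a u) ∧ ¬ VW A W u y)) := by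
      unfold cov SS
      congr!
    have h4 : cov A w (SS A W y) ∅ = 0 := by simp [cov, wt]
    rw [Finset.empty_union, h3, h4] at hex
    rw [wt_sdiff w hLK] at h1
    linarith

theorem star (hw : ∀ v, 0 < w v)
    (rowHall : ∀ (a : V) (J : Finset V), (∀ y ∈ J, Gp B W a y) →
      wt w J ≤ wt w (univ.filter (fun x => (∃ y ∈ J, A y x) ∧ ¬ HB A B a x)))
    (colHall : ∀ (y : V) (K : Finset V), (∀ a ∈ K, Gp B W a y) →
      wt w K ≤ wt w (univ.filter (fun u => (∃ a ∈ K, A a u) ∧ ¬ VW A W u y))) :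
    mu w (al A B W) + mu w (be A B W) ≤ mu w (Gp B W) + mu w (M1 A B W) := by
  classical
  set pG : ℝ → V → ℝ := fun θ y =>
    cov A w (SS A W y) (KG A w B W θ y) - θ * wt w (KG A w B W θ y) with hpG
  set pA : ℝ → V → ℝ := fun θ x =>
    cov A w (TT A W x) (KA A w B W θ x) - θ * wt w (KA A w B W θ x) with hpA
  set P : ℝ → ℝ := fun θ => ∑ y, w y * pG θ y - ∑ x, w x * pA θ x with hP
  set Q : ℝ → ℝ := fun θ => ∑ x, w x * wt w (KA A w B W θ x) with hQ
  set δ := mu w (al A B W) - mu w (Gp B W) with hδ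
  have hQ0 : ∀ θ, 0 ≤ Q θ := fun θ =>
    Finset.sum_nonneg fun x _ => mul_nonneg (hw x).le (wt_nonneg hw _)
  have hQC : ∀ θ, Q θ ≤ mu w (al A B W) := by
    intro θ
    rw [mu_col]
    exact Finset.sum_le_sum fun x _ => mul_le_mul_of_nonneg_left
      (wt_mono hw (KA_sub A w B W θ x)) (hw x).le
  have hstep : ∀ θ θ', θ ≤ θ' → P θ' - P θ ≤ (θ' - θ) * (δ + Q θ' - Q θ) := by
    intro θ θ' hθ
    have h1 : ∑ y, w y * pG θ' y ≤ ∑ y, w y * pG θ y -
        (θ' - θ) * ∑ y, w y * wt w (KG A w B W θ y) := by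
      rw [Finset.mul_sum, ← Finset.sum_sub_distrib]
      refine Finset.sum_le_sum fun y _ => ?_
      have := KG_min A w B W θ' y _ (KG_sub A w B W θ y)
      have h2 := mul_le_mul_of_nonneg_left this (hw y).le
      simp only [hpG]
      nlinarith
    have h2 : ∑ x, w x * pA θ x ≤ ∑ x, w x * pA θ' x + (θ' - θ) * Q θ' := by
      rw [hQ, Finset.mul_sum, ← Finset.sum_add_distrib]
      refine Finset.sum_le_sum fun x _ => ?_
      have := KA_min A w B W θ x _ (KA_sub A w B W θ' x)
      have h2 := mul_le_mul_of_nonneg_left this (hw x).le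
      simp only [hpA]
      nlinarith
    have h3 := slope hw rowHall θ
    have h4 : (θ' - θ) * (Q θ - ∑ y, w y * wt w (KG A w B W θ y)) ≤ (θ' - θ) * δ :=
      mul_le_mul_of_nonneg_left h3 (by linarith)
    simp only [hP]
    nlinarith
  -- choose T
  obtain ⟨T, hT1, hTw⟩ : ∃ T : ℝ, 1 ≤ T ∧ ∀ a, wt w univ ≤ T * w a := by
    rcases isEmpty_or_nonempty V with hV | hV
    · exact ⟨1, le_refl _, fun a => (IsEmpty.false a).elim⟩
    · obtain ⟨a0, -, ha0⟩ := Finset.exists_min_image (univ : Finset V) w univ_nonempty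
      refine ⟨max 1 (wt w univ / w a0), le_max_left _ _, fun a => ?_⟩
      have h1 : wt w univ = (wt w univ / w a0) * w a0 := by
        rw [div_mul_cancel₀]; exact (hw a0).ne'
      calc wt w univ = (wt w univ / w a0) * w a0 := h1
        _ ≤ max 1 (wt w univ / w a0) * w a0 :=
          mul_le_mul_of_nonneg_right (le_max_right _ _) (hw a0).le
        _ ≤ max 1 (wt w univ / w a0) * w a :=
          mul_le_mul_of_nonneg_left (ha0 a (mem_univ a)) (le_trans zero_le_one (le_max_left _ _))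
  have htel := telescope P Q δ (mu w (al A B W)) hQ0 hQC hstep T hT1
  have hP1 : P 1 ≤ 0 := by
    have h1 : ∑ y, w y * pG 1 y ≤ 0 := by
      refine Finset.sum_nonpos fun y _ => mul_nonpos_of_nonneg_of_nonpos (hw y).le ?_
      have := KG_min A w B W 1 y ∅ (Finset.empty_subset _)
      simp only [hpG]
      refine this.trans ?_
      simp [cov, wt]
    have h2 : 0 ≤ ∑ x, w x * pA 1 x := by
      refine Finset.sum_nonneg fun x _ => mul_nonneg (hw x).le ?_
      have := hallA hw colHall x _ _ (le_refl _) (KA_sub A w B W 1 x)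
      simp only [hpA]
      linarith
    simp only [hP]; linarith
  have hTG : ∀ y, cov A w (SS A W y) (EG B W y) - T * wt w (EG B W y) ≤ pG T y := by
    intro y
    simp only [hpG]
    have hsub := KG_sub A w B W T y
    set K := KG A w B W T y with hK
    by_cases hKE : K = EG B W y
    · rw [hKE]
    · obtain ⟨a, ha, haK⟩ : ∃ a ∈ EG B W y, a ∉ K := by
        by_contra hcon
        exact hKE (Finset.Subset.antisymm hsub (fun b hb => by
          by_contra hbK
          exact hcon ⟨b, hb, hbK⟩))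
      have h1 : cov A w (SS A W y) (EG B W y) ≤ wt w univ := wt_mono hw (Finset.subset_univ _)
      have h2 : 0 ≤ cov A w (SS A W y) K := wt_nonneg hw _
      have h3 : w a ≤ wt w (EG B W y \ K) := by
        have : wt w {a} ≤ wt w (EG B W y \ K) := wt_mono hw (by
          intro b hb; rw [Finset.mem_singleton] at hb; rw [hb, Finset.mem_sdiff]; exact ⟨ha, haK⟩)
        simpa [wt] using this
      rw [wt_sdiff w hsub] at h3
      have h4 : T * w a ≤ T * (wt w (EG B W y) - wt w K) :=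
        mul_le_mul_of_nonneg_left h3 (by linarith)
      have := hTw a
      linarith
  have hTA : ∀ x, pA T x ≤ cov A w (TT A W x) (EA A B W x) - T * wt w (EA A B W x) := fun x =>
    KA_min A w B W T x _ (Finset.Subset.refl _)
  have hPT : (∑ y, w y * (cov A w (SS A W y) (EG B W y) - T * wt w (EG B W y))) -
      ∑ x, w x * (cov A w (TT A W x) (EA A B W x) - T * wt w (EA A B W x)) ≤ P T := by
    have h1 := Finset.sum_le_sum (s := (univ : Finset V))
      fun y _ => mul_le_mul_of_nonneg_left (hTG y) (hw y).le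
    have h2 := Finset.sum_le_sum (s := (univ : Finset V))
      fun x _ => mul_le_mul_of_nonneg_left (hTA x) (hw x).le
    simp only [hP]
    linarith
  have hbe : mu w (be A B W) = ∑ y, w y * cov A w (SS A W y) (EG B W y) := by
    rw [mu_col]
    refine Finset.sum_congr rfl fun y _ => ?_
    unfold cov
    congr 2
    ext u
    rw [Finset.mem_filter, Finset.mem_filter]
    simp only [be, EG, SS, Finset.mem_filter, Finset.mem_univ, true_and]
  have hM1 : ∑ x, w x * cov A w (TT A W x) (EA A B W x) ≤ mu w (M1 A B W) := by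
    rw [mu_col]
    refine Finset.sum_le_sum fun x _ => mul_le_mul_of_nonneg_left (wt_mono hw ?_) (hw x).le
    intro u hu
    simp only [EA, TT, Finset.mem_filter, Finset.mem_univ, true_and] at hu ⊢
    obtain ⟨⟨a, ha, hau⟩, y, hy⟩ := hu
    exact ⟨⟨a, hau, ha.2⟩, y, hy⟩
  have hG : mu w (Gp B W) = ∑ y, w y * wt w (EG B W y) := mu_col w _
  have hA : mu w (al A B W) = ∑ x, w x * wt w (EA A B W x) := mu_col w _
  have e1 : ∑ y, w y * (cov A w (SS A W y) (EG B W y) - T * wt w (EG B W y)) =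
      mu w (be A B W) - T * mu w (Gp B W) := by
    rw [hbe, hG, Finset.mul_sum, ← Finset.sum_sub_distrib]
    exact Finset.sum_congr rfl fun y _ => by ring
  have e2 : ∑ x, w x * (cov A w (TT A W x) (EA A B W x) - T * wt w (EA A B W x)) =
      (∑ x, w x * cov A w (TT A W x) (EA A B W x)) - T * mu w (al A B W) := by
    rw [hA, Finset.mul_sum, ← Finset.sum_sub_distrib]
    exact Finset.sum_congr rfl fun x _ => by ring
  rw [e1, e2] at hPT
  simp only [hδ] at htel
  nlinarith

end main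

end

end P038H250
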