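import Mathlib
import Vale.Agent.P038.H250.Star
import Vale.Agent.P038.LeadS.Defs

/-!
P038, helper250: `no_G` : the expansion property (G) for all admissible sets is contradictory.
-/

namespace P038H250

open Finset Classical

noncomputable section

variable {V : Type*} [Fintype V]

lemma mu_le_of_imp {w : V → ℝ} (hw : ∀ v, 0 < w v) {R S : V → V → Prop}
    (h : ∀ a x, R a x → S a x) : mu w R ≤ mu w S := by
  unfold mu
  refine Finset.sum_le_sum fun a _ => Finset.sum_le_sum fun x _ => ?_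
  by_cases h1 : R a x
  · rw [if_pos h1, if_pos (h a x h1)]
  · rw [if_neg h1]
    split_ifs
    · exact (mul_pos (hw a) (hw x)).le
    · exact le_refl _

lemma mu_congr {w : V → ℝ} {R S : V → V → Prop} (h : ∀ a x, R a x ↔ S a x) :
    mu w R = mu w S := by
  have : R = S := by funext a x; exact propext (h a x)
  rw [this]

lemma mu_or {w : V → ℝ} {R S : V → V → Prop} (h : ∀ a x, R a x → ¬ S a x) :
    mu w (fun a x => R a x ∨ S a x) = mu w R + mu w S := by
  unfold mu
  rw [← Finset.sum_add_distrib]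
  refine Finset.sum_congr rfl fun a _ => ?_
  rw [← Finset.sum_add_distrib]
  refine Finset.sum_congr rfl fun x _ => ?_
  by_cases h1 : R a x
  · have h2 := h a x h1
    simp [h1, h2]
  · by_cases h2 : S a x <;> simp [h1, h2]

lemma mu_rowrect (w : V → ℝ) (b : V) (P : V → Prop) :
    mu w (fun a x => a = b ∧ P x) = w b * wt w (univ.filter P) := by
  rw [mu_row, Finset.sum_eq_single b]
  · congr 2
    ext x; simp
  · intro a _ hab
    simp [wt, hab]
  · intro h; exact absurd (mem_univ b) h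

lemma mu_colrect (w : V → ℝ) (b : V) (P : V → Prop) :
    mu w (fun a x => P a ∧ x = b) = w b * wt w (univ.filter P) := by
  rw [mu_col, Finset.sum_eq_single b]
  · congr 2
    ext x; simp
  · intro a _ hab
    simp [wt, hab]
  · intro h; exact absurd (mem_univ b) h

/-- total mass plus diagonal mass -/
def TD (w : V → ℝ) : ℝ := ∑ a, ∑ x, (w a * w x) * (1 + if a = x then 1 else 0)

lemma mu_three (w : V → ℝ) (P Q S : V → V → Prop)
    (hd : ∀ a, P a a ∧ Q a a ∧ ¬ S a a)
    (h1 : ∀ a x, a ≠ x → P a x → ¬ Q a x)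
    (h2 : ∀ a x, a ≠ x → P a x → ¬ S a x)
    (h3 : ∀ a x, a ≠ x → Q a x → ¬ S a x)
    (h4 : ∀ a x, a ≠ x → P a x ∨ Q a x ∨ S a x) :
    mu w P + mu w Q + mu w S = TD w := by
  unfold mu TD
  rw [← Finset.sum_add_distrib, ← Finset.sum_add_distrib]
  refine Finset.sum_congr rfl fun a _ => ?_
  rw [← Finset.sum_add_distrib, ← Finset.sum_add_distrib]
  refine Finset.sum_congr rfl fun x _ => ?_
  by_cases hax : a = x
  · subst hax
    obtain ⟨hp, hq, hs⟩ := hd a
    simp [hp, hq, hs]; ring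
  · rcases h4 a x hax with h | h | h
    · have hq := h1 a x hax h
      have hs := h2 a x hax h
      simp [h, hq, hs, hax]
    · have hp : ¬ P a x := fun hp => h1 a x hax hp h
      have hs := h3 a x hax h
      simp [h, hp, hs, hax]
    · have hp : ¬ P a x := fun hp => h2 a x hax hp h
      have hq : ¬ Q a x := fun hq => h3 a x hax hq h
      simp [h, hp, hq, hax]

/-- outer pairs -/
def Outer (A : V → V → Prop) (B W : V → V → Prop) : Prop :=
  (∀ a x, A a x → B a x) ∧ (∀ a x, A x a → W a x) ∧ (∀ a x, B a x → W a x → a = x)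

/-- cost -/
def cost (A : V → V → Prop) (w : V → ℝ) (B W : V → V → Prop) : ℝ :=
  (mu w (HB A B) - mu w B) + (mu w (VW A W) - mu w W)

lemma rowHall_of_min (A : V → V → Prop) {w : V → ℝ} (hw : ∀ v, 0 < w v) {B W : V → V → Prop}
    (ho : Outer A B W) (hmin : ∀ B' W', Outer A B' W' → cost A w B W ≤ cost A w B' W')
    (a : V) (J : Finset V) (hJ : ∀ y ∈ J, Gp B W a y) :
    wt w J ≤ wt w (univ.filter (fun x => (∃ y ∈ J, A y x) ∧ ¬ HB A B a x)) := by
  have ho' : Outer A (fun b x => B b x ∨ (b = a ∧ x ∈ J)) W := by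
    refine ⟨fun b x h => Or.inl (ho.1 b x h), ho.2.1, fun b x h h' => ?_⟩
    rcases h with h | ⟨rfl, h⟩
    · exact ho.2.2 b x h h'
    · exact absurd h' (hJ x h).2
  have h1 := hmin _ _ ho'
  have e1 : mu w (fun b x => B b x ∨ (b = a ∧ x ∈ J)) = mu w B + w a * wt w J := by
    rw [mu_or (fun b x h h' => ?_), mu_rowrect]
    · congr 3
      ext x; simp
    · exact (hJ x h'.2).1 (h'.1 ▸ h)
  have e2 : mu w (HB A (fun b x => B b x ∨ (b = a ∧ x ∈ J))) = mu w (HB A B) +
      w a * wt w (univ.filter (fun x => (∃ y ∈ J, A y x) ∧ ¬ HB A B a x)) := by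
    have e3 : w a * wt w (univ.filter (fun x => (∃ y ∈ J, A y x) ∧ ¬ HB A B a x)) =
        mu w (fun b x => b = a ∧ ((∃ y ∈ J, A y x) ∧ ¬ HB A B a x)) := by
      rw [mu_rowrect]; congr!
    rw [e3, ← mu_or]
    · apply mu_congr
      intro b x
      constructor
      · rintro ⟨y, hy | ⟨rfl, hy⟩, hyx⟩
        · exact Or.inl ⟨y, hy, hyx⟩
        · by_cases h : HB A B b x
          · exact Or.inl h
          · exact Or.inr ⟨rfl, ⟨y, hy, hyx⟩, h⟩
      · rintro (⟨y, hy, hyx⟩ | ⟨rfl, ⟨y, hy, hyx⟩, -⟩)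
        · exact ⟨y, Or.inl hy, hyx⟩
        · exact ⟨y, Or.inr ⟨rfl, hy⟩, hyx⟩
    · rintro b x h ⟨rfl, -, h'⟩
      exact h' h
  unfold cost at h1
  rw [e1, e2] at h1
  have h2 : w a * wt w J ≤
      w a * wt w (univ.filter (fun x => (∃ y ∈ J, A y x) ∧ ¬ HB A B a x)) := by linarith
  exact le_of_mul_le_mul_left h2 (hw a)

lemma colHall_of_min (A : V → V → Prop) {w : V → ℝ} (hw : ∀ v, 0 < w v) {B W : V → V → Prop}
    (ho : Outer A B W) (hmin : ∀ B' W', Outer A B' W' → cost A w B W ≤ cost A w B' W')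
    (y : V) (K : Finset V) (hK : ∀ a ∈ K, Gp B W a y) :
    wt w K ≤ wt w (univ.filter (fun u => (∃ a ∈ K, A a u) ∧ ¬ VW A W u y)) := by
  have ho' : Outer A B (fun b x => W b x ∨ (b ∈ K ∧ x = y)) := by
    refine ⟨ho.1, fun b x h => Or.inl (ho.2.1 b x h), fun b x h h' => ?_⟩
    rcases h' with h' | ⟨h', rfl⟩
    · exact ho.2.2 b x h h'
    · exact absurd h (hK b h').1
  have h1 := hmin _ _ ho'
  have e1 : mu w (fun b x => W b x ∨ (b ∈ K ∧ x = y)) = mu w W + w y * wt w K := by
    rw [mu_or (fun b x h h' => ?_), mu_colrect]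
    · congr 3
      ext x; simp
    · exact (hK b h'.1).2 (h'.2 ▸ h)
  have e2 : mu w (VW A (fun b x => W b x ∨ (b ∈ K ∧ x = y))) = mu w (VW A W) +
      w y * wt w (univ.filter (fun u => (∃ a ∈ K, A a u) ∧ ¬ VW A W u y)) := by
    have e3 : w y * wt w (univ.filter (fun u => (∃ a ∈ K, A a u) ∧ ¬ VW A W u y)) =
        mu w (fun b x => ((∃ a ∈ K, A a b) ∧ ¬ VW A W b y) ∧ x = y) := by
      rw [mu_colrect w y (fun u => (∃ a ∈ K, A a u) ∧ ¬ VW A W u y)]; congr!
    rw [e3, ← mu_or]
    · apply mu_congr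
      intro b x
      constructor
      · rintro ⟨z, hz | ⟨hz, rfl⟩, hzb⟩
        · exact Or.inl ⟨z, hz, hzb⟩
        · by_cases h : VW A W b x
          · exact Or.inl h
          · exact Or.inr ⟨⟨⟨z, hz, hzb⟩, h⟩, rfl⟩
      · rintro (⟨z, hz, hzb⟩ | ⟨⟨⟨z, hz, hzb⟩, -⟩, rfl⟩)
        · exact ⟨z, Or.inl hz, hzb⟩
        · exact ⟨z, Or.inr ⟨hz, rfl⟩, hzb⟩
    · rintro b x h ⟨⟨-, h'⟩, rfl⟩
      exact h' h
  unfold cost at h1
  rw [e1, e2] at h1
  have h2 : w y * wt w K ≤
      w y * wt w (univ.filter (fun u => (∃ a ∈ K, A a u) ∧ ¬ VW A W u y)) := by linarith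
  exact le_of_mul_le_mul_left h2 (hw y)

/-- left interior of `B` -/
def XX (A B : V → V → Prop) (a x : V) : Prop := ∀ z, A z a → B z x
/-- lower interior of `W` -/
def YY (A W : V → V → Prop) (a x : V) : Prop := ∀ y, A y x → W a y

omit [Fintype V] in
lemma inner_disj {A : V → V → Prop} (hA : ∀ a, A a a) {B W : V → V → Prop} (ho : Outer A B W)
    (a y : V) (h1 : HB A (XX A B) a y) (h2 : VW A (YY A W) a y) : a = y := by
  obtain ⟨x, hx, hxy⟩ := h1
  obtain ⟨z, hz, hza⟩ := h2
  have hzx : z = x := ho.2.2 z x (hx z hza) (hz x hxy)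
  subst hzx
  have haz : a = z := ho.2.2 a z (hx a (hA a)) (ho.2.1 a z hza)
  subst haz
  exact ho.2.2 a y (ho.1 a y hxy) (hz y (hA y))

lemma inner_le {A : V → V → Prop} (hA : ∀ a, A a a) {w : V → ℝ} (hw : ∀ v, 0 < w v)
    {B W : V → V → Prop} (ho : Outer A B W)
    (hmin : ∀ B' W', Outer A B' W' → cost A w B W ≤ cost A w B' W') :
    cost A w (XX A B) (YY A W) ≤ cost A w B W := by
  have hstar := star (A := A) (w := w) (B := B) (W := W) hw
    (rowHall_of_min A hw ho hmin) (colHall_of_min A hw ho hmin)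
  obtain ⟨hB, hW, hBW⟩ := ho
  have e1 : mu w (XX A B) + mu w (VW A W) + mu w (be A B W) = TD w := by
    apply mu_three
    · exact fun a => ⟨fun z hz => hB z a hz, ⟨a, hW a a (hA a), hA a⟩,
        fun h => h.2 ⟨a, hW a a (hA a), hA a⟩⟩
    · rintro a x hax hX ⟨z, hz, hza⟩
      have hzx := hBW z x (hX z hza) hz
      subst hzx
      exact hax (hBW a z (hX a (hA a)) (hW a z hza))
    · rintro a x hax hX ⟨⟨z, hz, hza⟩, -⟩
      exact hz.1 (hX z hza)
    · rintro a x hax hV hb
      exact hb.2 hV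
    · intro a x hax
      by_cases hV : VW A W a x
      · exact Or.inr (Or.inl hV)
      · by_cases hX : XX A B a x
        · exact Or.inl hX
        · unfold XX at hX
          push Not at hX
          obtain ⟨z, hza, hz⟩ := hX
          exact Or.inr (Or.inr ⟨⟨z, ⟨hz, fun h => hV ⟨z, h, hza⟩⟩, hza⟩, hV⟩)
  have e2 : mu w (YY A W) + mu w (HB A B) + mu w (al A B W) = TD w := by
    apply mu_three
    · exact fun a => ⟨fun z hz => hW a z hz, ⟨a, hB a a (hA a), hA a⟩,
        fun h => h.2 ⟨a, hB a a (hA a), hA a⟩⟩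
    · rintro a x hax hY ⟨y, hy, hyx⟩
      have hay := hBW a y hy (hY y hyx)
      subst hay
      exact hax (hBW a x (hB a x hyx) (hY x (hA x)))
    · rintro a x hax hY ⟨⟨y, hy, hyx⟩, -⟩
      exact hy.2 (hY y hyx)
    · rintro a x hax hV hb
      exact hb.2 hV
    · intro a x hax
      by_cases hV : HB A B a x
      · exact Or.inr (Or.inl hV)
      · by_cases hX : YY A W a x
        · exact Or.inl hX
        · unfold YY at hX
          push Not at hX
          obtain ⟨y, hyx, hy⟩ := hX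
          exact Or.inr (Or.inr ⟨⟨y, ⟨fun h => hV ⟨y, h, hyx⟩, hy⟩, hyx⟩, hV⟩)
  have e3 : mu w (HB A (XX A B)) + mu w (VW A (YY A W)) +
      mu w (fun a x => ¬ HB A (XX A B) a x ∧ ¬ VW A (YY A W) a x) = TD w := by
    apply mu_three
    · exact fun a => ⟨⟨a, fun z hz => hB z a hz, hA a⟩, ⟨a, fun z hz => hW a z hz, hA a⟩,
        fun h => h.1 ⟨a, fun z hz => hB z a hz, hA a⟩⟩
    · intro a x hax h1 h2
      exact hax (inner_disj hA ⟨hB, hW, hBW⟩ a x h1 h2)
    · intro a x hax h1 h2
      exact h2.1 h1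
    · intro a x hax h1 h2
      exact h2.2 h1
    · intro a x hax
      by_cases h1 : HB A (XX A B) a x
      · exact Or.inl h1
      · by_cases h2 : VW A (YY A W) a x
        · exact Or.inr (Or.inl h2)
        · exact Or.inr (Or.inr ⟨h1, h2⟩)
  have e4 : mu w B + mu w W + mu w (Gp B W) = TD w := by
    apply mu_three
    · exact fun a => ⟨hB a a (hA a), hW a a (hA a), fun h => h.1 (hB a a (hA a))⟩
    · intro a x hax h1 h2
      exact hax (hBW a x h1 h2)
    · intro a x hax h1 h2
      exact h2.1 h1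
    · intro a x hax h1 h2
      exact h2.2 h1
    · intro a x hax
      by_cases h1 : B a x
      · exact Or.inl h1
      · by_cases h2 : W a x
        · exact Or.inr (Or.inl h2)
        · exact Or.inr (Or.inr ⟨h1, h2⟩)
  have hM : mu w (M1 A B W) ≤ mu w (fun a x => ¬ HB A (XX A B) a x ∧ ¬ VW A (YY A W) a x) := by
    apply mu_le_of_imp hw
    rintro a x ⟨⟨z, hza, hz⟩, ⟨y, hyx, hy⟩⟩
    refine ⟨?_, ?_⟩
    · rintro ⟨t, ht, htx⟩
      exact hz ⟨t, ht z hza, htx⟩
    · rintro ⟨t, ht, hta⟩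
      exact hy ⟨t, ht y hyx, hta⟩
  unfold cost
  linarith

/-- expansion property contradiction, core form -/
theorem no_G_core [Nonempty V] (A : V → V → Prop) (hA : ∀ a, A a a)
    (hor : ∀ a b, A a b → A b a → a = b) (w : V → ℝ) (hw : ∀ a, 0 < w a)
    (hG : ∀ (a : V) (P : V → Prop), P a → (∀ z, A z a → z ≠ a → ¬ ∃ y, P y ∧ A y z) →
      wt w (univ.filter (fun z => ∃ y, (∃ t, P t ∧ A t y) ∧ A y z)) +
        wt w (univ.filter P) < 2 * wt w (univ.filter (fun z => ∃ y, P y ∧ A y z))) : False := by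
  have hfin : Finite {p : (V → V → Prop) × (V → V → Prop) // Outer A p.1 p.2} := inferInstance
  have hne : Nonempty {p : (V → V → Prop) × (V → V → Prop) // Outer A p.1 p.2} :=
    ⟨⟨(A, fun a x => A x a), fun _ _ h => h, fun _ _ h => h, fun a x h h' => hor a x h h'⟩⟩
  obtain ⟨⟨⟨B, W⟩, ho⟩, hmin'⟩ := Finite.exists_min
    (fun p : {p : (V → V → Prop) × (V → V → Prop) // Outer A p.1 p.2} => cost A w p.1.1 p.1.2)
  have hmin : ∀ B' W', Outer A B' W' → cost A w B W ≤ cost A w B' W' :=
    fun B' W' h => hmin' ⟨(B', W'), h⟩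
  simp only at ho
  have h1 := inner_le hA hw ho hmin
  have hXd : ∀ a, XX A B a a := fun a z hz => ho.1 z a hz
  have hYd : ∀ a, YY A W a a := fun a z hz => ho.2.1 a z hz
  have ho' : Outer A (HB A (XX A B)) (VW A (YY A W)) := by
    refine ⟨fun a x h => ⟨a, hXd a, h⟩, fun a x h => ⟨x, hYd x, h⟩, fun a x h h' => ?_⟩
    exact inner_disj hA ho a x h h'
  have h2 := hmin _ _ ho'
  have h3 : cost A w (HB A (XX A B)) (VW A (YY A W)) < cost A w (XX A B) (YY A W) := by
    have hr : mu w (HB A (HB A (XX A B))) + mu w (XX A B) < 2 * mu w (HB A (XX A B)) := by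
      rw [mu_row, mu_row, mu_row, ← Finset.sum_add_distrib, Finset.mul_sum]
      refine Finset.sum_lt_sum_of_nonempty univ_nonempty fun a _ => ?_
      have := hG a (fun x => XX A B a x) (hXd a) (fun z hza hz hex => ?_)
      · have h5 := mul_lt_mul_of_pos_left this (hw a)
        have e : univ.filter (fun x => HB A (HB A (XX A B)) a x) =
            univ.filter (fun z => ∃ y, (∃ t, XX A B a t ∧ A t y) ∧ A y z) := by
          ext z; rw [Finset.mem_filter, Finset.mem_filter]; rfl
        have e' : univ.filter (fun x => HB A (XX A B) a x) =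
            univ.filter (fun z => ∃ y, XX A B a y ∧ A y z) := by
          ext z; rw [Finset.mem_filter, Finset.mem_filter]; rfl
        rw [e, e']
        nlinarith
      · exact hz (inner_disj hA ho a z hex ⟨z, hYd z, hza⟩).symm
    have hc : mu w (VW A (VW A (YY A W))) + mu w (YY A W) < 2 * mu w (VW A (YY A W)) := by
      rw [mu_col, mu_col, mu_col, ← Finset.sum_add_distrib, Finset.mul_sum]
      refine Finset.sum_lt_sum_of_nonempty univ_nonempty fun x _ => ?_
      have := hG x (fun a => YY A W a x) (hYd x) (fun z hzx hz hex => ?_)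
      · have h5 := mul_lt_mul_of_pos_left this (hw x)
        have e : univ.filter (fun a => VW A (VW A (YY A W)) a x) =
            univ.filter (fun z => ∃ y, (∃ t, YY A W t x ∧ A t y) ∧ A y z) := by
          ext z; rw [Finset.mem_filter, Finset.mem_filter]; rfl
        have e' : univ.filter (fun a => VW A (YY A W) a x) =
            univ.filter (fun z => ∃ y, YY A W y x ∧ A y z) := by
          ext z; rw [Finset.mem_filter, Finset.mem_filter]; rfl
        rw [e, e']
        nlinarith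
      · exact hz (inner_disj hA ho z x ⟨z, hXd z, hzx⟩ hex)
    unfold cost
    linarith
  linarith

end

end P038H250

namespace Vale.Agent.P038.LeadS

open Finset

/-- L7: the expansion property (G) is contradictory. -/
theorem no_G {V : Type*} [Fintype V] [DecidableEq V] [Nonempty V] (R : V → V → Prop)
    (hR : ∀ a, R a a) (hor : ∀ a b, R a b → R b a → a = b)
    (w : V → ℝ) (hw : ∀ a, 0 < w a)
    (hG : ∀ (a : V) (X : Finset V), a ∈ X → (∀ z, R z a → z ≠ a → z ∉ N R X) →
      W w (N R (N R X) \ N R X) < W w (N R X \ X)) : False := by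
  classical
  refine P038H250.no_G_core R hR hor w hw ?_
  intro a P hPa hz
  have hsub : ∀ X : Finset V, X ⊆ N R X := by
    intro X x hx
    simp only [N, mem_filter, mem_univ, true_and]
    exact ⟨x, hx, hR x⟩
  have hWs : ∀ X : Finset V, W w (N R X \ X) = W w (N R X) - W w X := by
    intro X
    have := Finset.sum_sdiff (f := w) (hsub X)
    unfold W; linarith
  have h := hG a (univ.filter P) (by simp [hPa]) (by
    intro z hza hz1 hzN
    simp only [N, mem_filter, mem_univ, true_and] at hzN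
    exact hz z hza hz1 hzN)
  rw [hWs, hWs] at h
  have e1 : N R (univ.filter P) = univ.filter (fun z => ∃ y, P y ∧ R y z) := by
    ext z; simp [N]
  have e2 : N R (N R (univ.filter P)) =
      univ.filter (fun z => ∃ y, (∃ t, P t ∧ R t y) ∧ R y z) := by
    ext z; simp [N]
  rw [e2, e1] at h
  have e3 : ∀ S : Finset V, W w S = P038H250.wt w S := fun S => rfl
  rw [e3, e3, e3] at h
  have e4 : P038H250.wt w (univ.filter (fun z => ∃ y, (∃ t, P t ∧ R t y) ∧ R y z)) +
        P038H250.wt w (univ.filter P) <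
        2 * P038H250.wt w (univ.filter (fun z => ∃ y, P y ∧ R y z)) := by linarith
  convert e4

end Vale.Agent.P038.LeadS
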